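import Mathlib

/-!
Monoids of deterministic two-way behaviours: labels of idempotents and rank loss.
-/

set_option linter.unusedSectionVars false

namespace Vale.Agent.P343

/-- A zigzag between a right part `A` and a left part `B`. -/
inductive Mid {Q : Type} (A B : Q × Bool → Q × Bool → Prop) : Q × Bool → Q × Bool → Prop
  | exitR (q q' : Q) : A (q, true) (q', true) → Mid A B (q, true) (q', true)
  | bounceR (q q' : Q) (o : Q × Bool) :
      A (q, true) (q', false) → Mid A B (q', false) o → Mid A B (q, true) o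
  | exitL (q q' : Q) : B (q, false) (q', false) → Mid A B (q, false) (q', false)
  | bounceL (q q' : Q) (o : Q × Bool) :
      B (q, false) (q', true) → Mid A B (q', true) o → Mid A B (q, false) o

theorem Mid.lastR {Q : Type} {A B : Q × Bool → Q × Bool → Prop} {p o : Q × Bool}
    (h : Mid A B p o) (ho : o.2 = true) : ∃ q, A (q, true) o := by
  induction h with
  | exitR q q' h => exact ⟨q, h⟩
  | bounceR q q' o _ _ ih => exact ih ho
  | exitL q q' h => simp at ho
  | bounceL q q' o _ _ ih => exact ih ho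

theorem Mid.lastL {Q : Type} {A B : Q × Bool → Q × Bool → Prop} {p o : Q × Bool}
    (h : Mid A B p o) (ho : o.2 = false) : ∃ q, B (q, false) o := by
  induction h with
  | exitR q q' h => simp at ho
  | bounceR q q' o _ _ ih => exact ih ho
  | exitL q q' h => exact ⟨q, h⟩
  | bounceL q q' o _ _ ih => exact ih ho

/-- Abstract deterministic two-way behaviours. `R u v p o`: started at the boundary between `u`
and `v` with state and direction `p`, the run leaves `u v` with state and direction `o`. -/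
structure TW (M : Type) [Monoid M] (Q : Type) where
  R : M → M → Q × Bool → Q × Bool → Prop
  det : ∀ {u v p o o'}, R u v p o → R u v p o' → o = o'
  unitR : ∀ u q, R u 1 (q, true) (q, true)
  unitL : ∀ v q, R 1 v (q, false) (q, false)
  liftR : ∀ (U V : M) {u v p q o}, R u v p (q, true) → R (U * u * v) V (q, true) o →
    R (U * u) (v * V) p o
  liftL : ∀ (U V : M) {u v p q o}, R u v p (q, false) → R U (u * v * V) (q, false) o →
    R (U * u) (v * V) p o
  decomp : ∀ (U u v V : M) {p o}, R (U * u) (v * V) p o → ∃ q,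
    (R u v p (q, true) ∧ R (U * u * v) V (q, true) o) ∨
    (R u v p (q, false) ∧ R U (u * v * V) (q, false) o)
  pathR : ∀ (u E v : M) {q o}, R (u * E) v (q, true) o → Mid (R E v) (R u E) (q, true) o
  pathL : ∀ (u E v : M) {q o}, R u (E * v) (q, false) o → Mid (R E v) (R u E) (q, false) o
  ext : ∀ {x y}, (∀ q o, R 1 x (q, true) o ↔ R 1 y (q, true) o) →
    (∀ q o, R x 1 (q, false) o ↔ R y 1 (q, false) o) → x = y

/-- `x` lies in the corner of `E`. -/
def In {M : Type} [Monoid M] (E x : M) : Prop := E * x = x ∧ x * E = x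

theorem In.mul {M : Type} [Monoid M] {E x y : M} (hx : In E x) (hy : In E y) : In E (x * y) :=
  ⟨by rw [← mul_assoc, hx.1], by rw [mul_assoc, hy.2]⟩

theorem In.pow {M : Type} [Monoid M] {E x : M} (hx : In E x) (n : ℕ) : In E (x ^ (n + 1)) := by
  induction n with
  | zero => simpa using hx
  | succ n ih => rw [pow_succ]; exact ih.mul hx

theorem In.trans {M : Type} [Monoid M] {E F x : M} (hF : In E F) (hx : In F x) : In E x :=
  ⟨by rw [← hx.1, ← mul_assoc, hF.1], by rw [← hx.2, mul_assoc, hF.2]⟩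

theorem In.sandwich {M : Type} [Monoid M] {F : M} (hF : F * F = F) (x : M) : In F (F * x * F) :=
  ⟨by rw [← mul_assoc, ← mul_assoc, hF], by rw [mul_assoc, hF]⟩

theorem exists_idem_pow {M : Type} [Monoid M] [Finite M] (x : M) :
    ∃ n : ℕ, x ^ (n + 1) * x ^ (n + 1) = x ^ (n + 1) := by
  obtain ⟨i, j, hij, h⟩ : ∃ i j : ℕ, i < j ∧ x ^ i = x ^ j := by
    obtain ⟨i, j, hne, h⟩ := Finite.exists_ne_map_eq_of_infinite (fun n : ℕ => x ^ n)
    rcases lt_or_gt_of_ne hne with hlt | hlt
    · exact ⟨i, j, hlt, h⟩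
    · exact ⟨j, i, hlt, h.symm⟩
  obtain ⟨d, rfl⟩ := Nat.exists_eq_add_of_lt hij
  have h1 : ∀ k : ℕ, x ^ (i + k * (d + 1)) = x ^ i := by
    intro k
    induction k with
    | zero => simp
    | succ k ih =>
      rw [show i + (k + 1) * (d + 1) = (i + d + 1) + k * (d + 1) by ring, pow_add, ← h, ← pow_add,
        ih]
  refine ⟨(i + 1) * (d + 1) - 1, ?_⟩
  have hpos : 0 < (i + 1) * (d + 1) := by positivity
  rw [Nat.sub_add_cancel hpos, ← pow_add]
  obtain ⟨c, hc⟩ : ∃ c, (i + 1) * (d + 1) = i + c := ⟨(i + 1) * (d + 1) - i, by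
    have : i ≤ (i + 1) * (d + 1) := by nlinarith
    omega⟩
  calc x ^ ((i + 1) * (d + 1) + (i + 1) * (d + 1)) = x ^ (i + (i + 1) * (d + 1)) * x ^ c := by
        rw [← pow_add]; congr 1; omega
    _ = x ^ ((i + 1) * (d + 1)) := by rw [h1, ← pow_add, hc]

namespace TW

variable {M : Type} [Monoid M] {Q : Type} (T : TW M Q)

include T in
theorem finite [Finite Q] : Finite M :=
  Finite.of_injective (fun x : M => ((fun q o => T.R 1 x (q, true) o, fun q o => T.R x 1 (q, false) o) :
    (Q → Q × Bool → Prop) × (Q → Q × Bool → Prop))) fun x y h => by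
    obtain ⟨h1, h2⟩ := Prod.mk.inj h
    exact T.ext (fun q o => iff_of_eq (congrFun (congrFun h1 q) o))
      (fun q o => iff_of_eq (congrFun (congrFun h2 q) o))

theorem cast {u v u' v' : M} {p o : Q × Bool} (h : T.R u v p o) (e1 : u' = u) (e2 : v' = v) :
    T.R u' v' p o := by subst e1 e2; exact h

/-- Labels of `E`: outputs of passes through `E`. -/
def Lab (E : M) : Set (Q × Bool) :=
  {p | (p.2 = true ∧ ∃ q, T.R 1 E (q, true) p) ∨ (p.2 = false ∧ ∃ q, T.R E 1 (q, false) p)}

/-- `x` passes the label `p` straight through, in the corner of `E`. -/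
def Fix (E x : M) (p : Q × Bool) : Prop :=
  (p.2 = true ∧ T.R E x p p) ∨ (p.2 = false ∧ T.R x E p p)

theorem fixR {E x : M} {q : Q} : T.Fix E x (q, true) ↔ T.R E x (q, true) (q, true) := by
  simp [Fix]

theorem fixL {E x : M} {q : Q} : T.Fix E x (q, false) ↔ T.R x E (q, false) (q, false) := by
  simp [Fix]

theorem labR {a b E : M} {p : Q × Bool} {q : Q} (h : T.R a (b * E) p (q, true)) :
    (q, true) ∈ T.Lab E := by
  obtain ⟨q1, ⟨-, h2⟩ | ⟨-, h2⟩⟩ := T.decomp 1 a b E (T.cast h (one_mul a) rfl)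
  · obtain ⟨q0, h0⟩ := (T.pathR (1 * a * b) 1 E (T.cast h2 (mul_one _) rfl)).lastR rfl
    exact Or.inl ⟨rfl, q0, h0⟩
  · have := T.det h2 (T.unitL _ q1)
    simp at this

theorem labL {a b E : M} {p : Q × Bool} {q : Q} (h : T.R (E * a) b p (q, false)) :
    (q, false) ∈ T.Lab E := by
  obtain ⟨q1, ⟨-, h2⟩ | ⟨-, h2⟩⟩ := T.decomp E a b 1 (T.cast h rfl (mul_one b))
  · have := T.det h2 (T.unitR _ q1)
    simp at this
  · obtain ⟨q0, h0⟩ := (T.pathL E 1 (a * b * 1) (T.cast h2 rfl (one_mul _))).lastL rfl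
    exact Or.inr ⟨rfl, q0, h0⟩

theorem fix_self {E : M} (hE : E * E = E) {p : Q × Bool} (hp : p ∈ T.Lab E) : T.R E E p p := by
  rcases hp with ⟨h, q0, h0⟩ | ⟨h, q0, h0⟩
  · obtain ⟨q1, ⟨h1, h2⟩ | ⟨h1, -⟩⟩ := T.decomp 1 1 E E (T.cast h0 (mul_one 1) hE)
    · have := T.det h0 h1
      subst this
      exact T.cast h2 (by simp) rfl
    · have := T.det h0 h1
      subst this
      simp at h
  · obtain ⟨q1, ⟨h1, -⟩ | ⟨h1, h2⟩⟩ := T.decomp E E 1 1 (T.cast h0 hE (mul_one 1))
    · have := T.det h0 h1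
      subst this
      simp at h
    · have := T.det h0 h1
      subst this
      exact T.cast h2 rfl (by simp)

theorem mid_R {u E v : M} (hu : u * E = u) (hv : E * v = v) {p o : Q × Bool}
    (h : Mid (T.R E v) (T.R u E) p o) : T.R u v p o := by
  induction h with
  | exitR q q' h => exact T.cast (T.liftR u 1 h (T.unitR _ _)) hu.symm (mul_one v).symm
  | bounceR q q' o h _ ih =>
    exact T.cast (T.liftL u 1 h (T.cast ih rfl (by rw [mul_one, hv]))) hu.symm (mul_one v).symm
  | exitL q q' h => exact T.cast (T.liftL 1 v h (T.unitL _ _)) (one_mul u).symm hv.symm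
  | bounceL q q' o h _ ih =>
    exact T.cast (T.liftR 1 v h (T.cast ih (by rw [one_mul, hu]) rfl)) (one_mul u).symm hv.symm

theorem insR {u E v x : M} (hu : u * E = u) {q : Q} {o : Q × Bool}
    (hf : T.Fix E x (q, true)) (h : T.R (u * x) v (q, true) o) : T.R u (x * v) (q, true) o :=
  T.cast (T.liftR u v (T.fixR.mp hf) (T.cast h (by rw [hu]) rfl)) hu.symm rfl

theorem insL {u E v x : M} (hv : E * v = v) (hx : In E x) {q : Q} {o : Q × Bool}
    (hf : T.Fix E x (q, false)) (h : T.R u (x * v) (q, false) o) : T.R (u * x) v (q, false) o :=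
  T.cast (T.liftL u v (T.fixL.mp hf) (T.cast h rfl (by rw [hx.2]))) rfl hv.symm

theorem ctx_mid {u E v x : M} (hu : u * E = u) (hv : E * v = v) (hx : In E x) {p o : Q × Bool}
    (h : Mid (T.R E v) (T.R u E) p o) (hf : ∀ p' ∈ T.Lab E, T.R u v p' o → T.Fix E x p') :
    (p.2 = true → T.R (u * x) v p o) ∧ (p.2 = false → T.R u (x * v) p o) := by
  have e1 : u * x = u * x * E := by rw [mul_assoc, hx.2]
  have e2 : x * v = E * (x * v) := by rw [← mul_assoc, hx.1]
  induction h with
  | exitR q q' h =>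
    exact ⟨fun _ => T.cast (T.liftR (u * x) 1 h (T.unitR _ _)) e1 (mul_one v).symm, by simp⟩
  | bounceR q q' o h hm ih =>
    refine ⟨fun _ => ?_, by simp⟩
    have l1 : (q', false) ∈ T.Lab E := T.labL (T.cast h (mul_one E) rfl)
    have l2 := T.insL hv hx (hf _ l1 (T.mid_R hu hv hm)) ((ih hf).2 rfl)
    exact T.cast (T.liftL (u * x) 1 h (T.cast l2 rfl (by rw [mul_one, hv]))) e1 (mul_one v).symm
  | exitL q q' h =>
    exact ⟨by simp, fun _ => T.cast (T.liftL 1 (x * v) h (T.unitL _ _)) (one_mul u).symm e2⟩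
  | bounceL q q' o h hm ih =>
    refine ⟨by simp, fun _ => ?_⟩
    have l1 : (q', true) ∈ T.Lab E := T.labR (T.cast h rfl (one_mul E))
    have l2 := T.insR hu (hf _ l1 (T.mid_R hu hv hm)) ((ih hf).1 rfl)
    exact T.cast (T.liftR 1 (x * v) h (T.cast l2 (by rw [one_mul, hu]) rfl)) (one_mul u).symm e2

/-- The context lemma. -/
theorem ctx {u E v x F : M} (hu : u * E = u) (hv : E * v = v) (hx : In E x) (huv : u * v = F)
    (hF : F * F = F) (hFu : F * u = u) (hvF : v * F = v) {s : Q × Bool} (hs : s ∈ T.Lab F)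
    (hf : ∀ p' ∈ T.Lab E, T.R u v p' s → T.Fix E x p') : T.Fix F (u * x * v) s := by
  have h0 := T.fix_self hF hs
  obtain ⟨q, d⟩ := s
  cases d
  · rw [T.fixL]
    obtain ⟨q1, ⟨-, h2⟩ | ⟨h1, h2⟩⟩ := T.decomp u v F 1 (T.cast h0 huv (mul_one F))
    · have := T.det h2 (T.unitR _ q1)
      simp at this
    · have h3 : T.R u v (q1, false) (q, false) := T.cast h2 rfl (by rw [mul_one, hvF])
      have l1 : (q1, false) ∈ T.Lab E := T.labL (T.cast h1 hv rfl)
      have h4 := (T.ctx_mid hu hv hx (T.pathL u E v (T.cast h3 rfl hv)) hf).2 rfl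
      have h5 := T.insL hv hx (hf _ l1 h3) h4
      exact T.cast (T.liftL (u * x) 1 h1 (T.cast h5 rfl (by rw [mul_one, hvF]))) rfl (mul_one F).symm
  · rw [T.fixR]
    obtain ⟨q1, ⟨h1, h2⟩ | ⟨-, h2⟩⟩ := T.decomp 1 F u v (T.cast h0 (one_mul F) huv)
    · have h3 : T.R u v (q1, true) (q, true) := T.cast h2 (by rw [one_mul, hFu]) rfl
      have l1 : (q1, true) ∈ T.Lab E := T.labR (T.cast h1 rfl hu)
      have h4 := (T.ctx_mid hu hv hx (T.pathR u E v (T.cast h3 hu rfl)) hf).1 rfl
      have h5 := T.insR hu (hf _ l1 h3) h4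
      exact T.cast (T.liftR 1 (x * v) h1 (T.cast h5 (by rw [one_mul, hFu]) rfl)) (one_mul F).symm
        (mul_assoc _ _ _)
    · have := T.det h2 (T.unitL _ q1)
      simp at this

theorem fix_mul {E x y : M} (hx : In E x) (hy : In E y) {p : Q × Bool} (h1 : T.Fix E x p)
    (h2 : T.Fix E y p) : T.Fix E (x * y) p := by
  obtain ⟨q, d⟩ := p
  cases d
  · rw [T.fixL] at *
    have h3 : T.R x y (q, false) (q, false) :=
      T.cast (T.liftL 1 y h1 (T.unitL _ _)) (one_mul x).symm hy.1.symm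
    exact T.cast (T.liftL x 1 h2 (T.cast h3 rfl (by rw [mul_one, hy.2]))) rfl (mul_one E).symm
  · rw [T.fixR] at *
    have h3 : T.R x y (q, true) (q, true) :=
      T.cast (T.liftR x 1 h2 (T.unitR _ _)) hx.2.symm (mul_one y).symm
    exact T.cast (T.liftR 1 y h1 (T.cast h3 (by rw [one_mul, hx.1]) rfl)) (one_mul E).symm rfl

theorem fix_pow {E x : M} (hx : In E x) {p : Q × Bool} (h1 : T.Fix E x p) (n : ℕ) :
    T.Fix E (x ^ (n + 1)) p := by
  induction n with
  | zero => simpa using h1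
  | succ n ih => rw [pow_succ]; exact T.fix_mul (hx.pow n) hx ih h1

theorem fix_id {E : M} (hE : E * E = E) {p : Q × Bool} (hp : p ∈ T.Lab E) : T.Fix E E p := by
  have := T.fix_self hE hp
  obtain ⟨q, d⟩ := p
  cases d
  · exact T.fixL.mpr this
  · exact T.fixR.mpr this

theorem eq_of_fix {E x : M} (hx : In E x) (hf : ∀ p ∈ T.Lab E, T.Fix E x p) : x = E := by
  apply T.ext
  · intro q o
    constructor
    · intro h
      obtain ⟨q1, ⟨h1, h2⟩ | ⟨h1, h2⟩⟩ := T.decomp 1 1 E x (T.cast h (mul_one 1) hx.1)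
      · have h3 := T.fixR.mp (hf _ (Or.inl ⟨rfl, q, h1⟩))
        rw [T.det (T.cast h2 (by simp) rfl) h3]
        exact h1
      · rw [T.det h2 (T.unitL _ _)]
        exact h1
    · intro h
      obtain ⟨q1, d⟩ := o
      cases d
      · exact T.cast (T.liftL 1 x h (T.unitL _ _)) (mul_one 1).symm hx.1.symm
      · have h3 := T.fixR.mp (hf _ (Or.inl ⟨rfl, q, h⟩))
        exact T.cast (T.liftR 1 x h (T.cast h3 (by simp) rfl)) (mul_one 1).symm hx.1.symm
  · intro q o
    constructor
    · intro h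
      obtain ⟨q1, ⟨h1, h2⟩ | ⟨h1, h2⟩⟩ := T.decomp x E 1 1 (T.cast h hx.2 (mul_one 1))
      · rw [T.det h2 (T.unitR _ _)]
        exact h1
      · have h3 := T.fixL.mp (hf _ (Or.inr ⟨rfl, q, h1⟩))
        rw [T.det (T.cast h2 rfl (by simp)) h3]
        exact h1
    · intro h
      obtain ⟨q1, d⟩ := o
      cases d
      · have h3 := T.fixL.mp (hf _ (Or.inr ⟨rfl, q, h⟩))
        exact T.cast (T.liftL x 1 h (T.cast h3 rfl (by simp))) hx.2.symm (mul_one 1).symm
      · exact T.cast (T.liftR x 1 h (T.unitR _ _)) hx.2.symm (mul_one 1).symm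

theorem lab_mono {E P : M} (hP : In E P) : T.Lab P ⊆ T.Lab E := by
  rintro ⟨q, d⟩ (⟨h, q0, h0⟩ | ⟨h, q0, h0⟩)
  · simp only at h
    subst h
    exact T.labR (T.cast h0 rfl hP.2)
  · simp only at h
    subst h
    exact T.labL (T.cast h0 hP.1 rfl)

theorem lab_of_fix {E P : M} {p : Q × Bool} (h : T.Fix E P p) : p ∈ T.Lab P := by
  obtain ⟨q, d⟩ := p
  cases d
  · exact T.labL (T.cast (T.fixL.mp h) (mul_one P) rfl)
  · exact T.labR (T.cast (T.fixR.mp h) rfl (one_mul P))

/-- Number of labels. -/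
noncomputable def rank (E : M) : ℕ := (T.Lab E).ncard

/-- The labels of `E` that `x` does not pass straight through. -/
def Mov (E x : M) : Set (Q × Bool) := {p | p ∈ T.Lab E ∧ ¬ T.Fix E x p}

variable [Finite Q]

theorem ncard_le_of_R {u v : M} {A S : Set (Q × Bool)} (h : ∀ s ∈ A, ∃ p ∈ S, T.R u v p s) :
    A.ncard ≤ S.ncard := by
  classical
  choose! f hf1 hf2 using h
  refine Set.ncard_le_ncard_of_injOn f hf1 (fun s hs s' hs' e => ?_) (Set.toFinite _)
  exact T.det (hf2 s hs) (e ▸ hf2 s' hs')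

theorem mov_ctx {u E v x F : M} (hu : u * E = u) (hv : E * v = v) (hx : In E x) (huv : u * v = F)
    (hF : F * F = F) (hFu : F * u = u) (hvF : v * F = v) :
    (T.Mov F (u * x * v)).ncard ≤ (T.Mov E x).ncard := by
  apply T.ncard_le_of_R (u := u) (v := v)
  rintro s ⟨hs, hn⟩
  by_contra hc
  apply hn
  apply T.ctx hu hv hx huv hF hFu hvF hs
  intro p hp hR
  by_contra hfix
  exact hc ⟨p, ⟨hp, hfix⟩, hR⟩

theorem mov_idem {E P : M} (hP : In E P) (hPP : P * P = P) :
    (T.Mov E P).ncard + 2 * T.rank P ≤ 2 * T.rank E := by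
  have hsub := T.lab_mono hP
  have h1 : (T.Lab E \ T.Lab P).ncard + T.rank P = T.rank E :=
    Set.ncard_sdiff_add_ncard_of_subset hsub (Set.toFinite _)
  have h2 : {p | p ∈ T.Lab P ∧ ¬ T.Fix E P p}.ncard ≤ (T.Lab E \ T.Lab P).ncard := by
    apply T.ncard_le_of_R (u := P) (v := P)
    rintro ⟨q, d⟩ ⟨hs, hn⟩
    have h0 := T.fix_self hPP hs
    cases d
    · have hm := T.pathL P E P (T.cast h0 rfl hP.1)
      cases hm with
      | exitL _ _ h => exact absurd (T.fixL.mpr h) hn
      | bounceL _ q' _ h hm =>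
        have h3 := T.mid_R hP.2 hP.1 hm
        refine ⟨(q', true), ⟨T.labR (T.cast h rfl (one_mul E)), fun hl => ?_⟩, h3⟩
        have := T.det h3 (T.fix_self hPP hl)
        simp at this
    · have hm := T.pathR P E P (T.cast h0 hP.2 rfl)
      cases hm with
      | exitR _ _ h => exact absurd (T.fixR.mpr h) hn
      | bounceR _ q' _ h hm =>
        have h3 := T.mid_R hP.2 hP.1 hm
        refine ⟨(q', false), ⟨T.labL (T.cast h (mul_one E) rfl), fun hl => ?_⟩, h3⟩
        have := T.det h3 (T.fix_self hPP hl)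
        simp at this
  have h3 : T.Mov E P ⊆ (T.Lab E \ T.Lab P) ∪ {p | p ∈ T.Lab P ∧ ¬ T.Fix E P p} := by
    rintro p ⟨hp, hn⟩
    by_cases hl : p ∈ T.Lab P
    · exact Or.inr ⟨hl, hn⟩
    · exact Or.inl ⟨hp, hl⟩
  have h4 := (Set.ncard_le_ncard h3 (Set.toFinite _)).trans (Set.ncard_union_le _ _)
  omega

theorem eq_of_mov {E x : M} (hx : In E x) (h : (T.Mov E x).ncard = 0) : x = E := by
  rw [Set.ncard_eq_zero (Set.toFinite _)] at h
  apply T.eq_of_fix hx
  intro p hp
  by_contra hn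
  have : p ∈ T.Mov E x := ⟨hp, hn⟩
  rw [h] at this
  exact this

theorem rank_le [Fintype Q] (E : M) : T.rank E ≤ 2 * Fintype.card Q := by
  have := Set.ncard_le_ncard (Set.subset_univ (T.Lab E)) (Set.toFinite _)
  rw [Set.ncard_univ, Nat.card_eq_fintype_card, Fintype.card_prod, Fintype.card_bool] at this
  unfold rank
  omega

theorem mov_le_rank (E x : M) : (T.Mov E x).ncard ≤ T.rank E :=
  Set.ncard_le_ncard (fun _ h => h.1) (Set.toFinite _)

end TW

end Vale.Agent.P343
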