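import Mathlib

/-!
Two-way finite automata: definitions used in the statements for P343.
-/

namespace Vale.Agent.P343

/-- Tape symbols: the left endmarker, the right endmarker, or a letter of the alphabet. -/
inductive Sym (α : Type) where
  | lend : Sym α
  | rend : Sym α
  | letter : α → Sym α

/-- Head moves. -/
inductive Move where
  | left : Move
  | stay : Move
  | right : Move

/-- A two-way nondeterministic finite automaton with alphabet `α` and state set `Q`. The head
never moves beyond an endmarker. -/
structure TwoNFA (α Q : Type) where
  init : Q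
  accept : Set Q
  trans : Q → Sym α → Set (Q × Move)
  not_left : ∀ q q', (q', Move.left) ∉ trans q Sym.lend
  not_right : ∀ q q', (q', Move.right) ∉ trans q Sym.rend

/-- The tape `⊢ w ⊣`; the left endmarker has position `0`. -/
def tape {α : Type} (w : List α) : List (Sym α) :=
  Sym.lend :: (w.map Sym.letter ++ [Sym.rend])

/-- One step between configurations (state, head position) on input `w`. -/
def TwoNFA.Step {α Q : Type} (A : TwoNFA α Q) (w : List α) (c c' : Q × ℕ) : Prop :=
  ∃ s, (tape w)[c.2]? = some s ∧
    (((c'.1, Move.left) ∈ A.trans c.1 s ∧ c'.2 + 1 = c.2) ∨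
      ((c'.1, Move.stay) ∈ A.trans c.1 s ∧ c'.2 = c.2) ∨
      ((c'.1, Move.right) ∈ A.trans c.1 s ∧ c'.2 = c.2 + 1))

/-- The accepted words: some finite computation from the initial state on the left endmarker
reaches an accepting state. -/
def TwoNFA.language {α Q : Type} (A : TwoNFA α Q) : Set (List α) :=
  {w | ∃ q ∈ A.accept, ∃ i : ℕ, Relation.ReflTransGen (A.Step w) (A.init, 0) (q, i)}

/-- Deterministic: at most one transition for each state and symbol. -/
def TwoNFA.IsDet {α Q : Type} (A : TwoNFA α Q) : Prop :=
  ∀ q s, (A.trans q s).Subsingleton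

/-- One-way: the head never moves left. -/
def TwoNFA.IsOneWay {α Q : Type} (A : TwoNFA α Q) : Prop :=
  ∀ q s q', (q', Move.left) ∉ A.trans q s

end Vale.Agent.P343
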