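import Mathlib
import Vale.Agent.P343.Abstract

/-!
The doubling recursion for corners that map onto a monoid of binary relations.
-/

set_option linter.unusedSectionVars false

namespace Vale.Agent.P343

open Relation

/-- The corner of `E` maps onto the monoid of binary relations on `ι`. -/
structure Frame {M : Type} [Monoid M] (E : M) (ι : Type) where
  ρ : M → ι → ι → Prop
  one : ρ E = Eq
  mul : ∀ {x y}, In E x → In E y → ρ (x * y) = Comp (ρ x) (ρ y)
  surj : ∀ r, ∃ x, In E x ∧ ρ x = r

/-- The identity relation with one more edge. -/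
def elem {ι : Type} (a b : ι) : ι → ι → Prop := fun i j => i = j ∨ (i = a ∧ j = b)

theorem comp_eq' {ι κ : Type} (r : ι → κ → Prop) : Comp r Eq = r := comp_eq
theorem eq_comp' {ι κ : Type} (r : ι → κ → Prop) : Comp Eq r = r := eq_comp

namespace Frame

variable {M : Type} [Monoid M] {E : M} {ι : Type} (fr : Frame E ι)

theorem pow {x : M} (hx : In E x) {r : ι → ι → Prop} (hr : fr.ρ x = r) (hrr : Comp r r = r)
    (n : ℕ) : fr.ρ (x ^ (n + 1)) = r := by
  induction n with
  | zero => simpa using hr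
  | succ n ih => rw [pow_succ, fr.mul (hx.pow n) hx, ih, hr, hrr]

theorem exists_idem [Finite M] {P : M} (hP : In E P) (hPP : P * P = P) {r : ι → ι → Prop}
    (h1 : Comp (Comp (fr.ρ P) r) (fr.ρ P) = r) (hrr : Comp r r = r) :
    ∃ F, In P F ∧ F * F = F ∧ fr.ρ F = r := by
  obtain ⟨y, hy, hyr⟩ := fr.surj r
  obtain ⟨n, hn⟩ := exists_idem_pow (P * y * P)
  refine ⟨_, (In.sandwich hPP y).pow n, hn, fr.pow ((hP.mul hy).mul hP) ?_ hrr n⟩
  rw [fr.mul (hP.mul hy) hP, fr.mul hP hy, hyr, h1]

/-- Passing to a smaller corner. -/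
def sub {κ : Type} (u : κ → ι → Prop) (v : ι → κ → Prop) (huv : Comp u v = Eq) {F : M}
    (hF : In E F) (hFF : F * F = F) (hρ : fr.ρ F = Comp v u) : Frame F κ where
  ρ x := Comp (Comp u (fr.ρ x)) v
  one := by rw [hρ, ← comp_assoc, huv, eq_comp', huv]
  mul := by
    intro x y hx hy
    have e : x * y = x * F * y := by rw [hx.2]
    rw [e, fr.mul ((hF.trans hx).mul hF) (hF.trans hy), fr.mul (hF.trans hx) hF, hρ]
    simp only [comp_assoc]
  surj r := by
    obtain ⟨y, hy, hyr⟩ := fr.surj (Comp (Comp v r) u)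
    refine ⟨F * y * F, In.sandwich hFF y, ?_⟩
    rw [fr.mul (hF.mul hy) hF, fr.mul hF hy, hyr, hρ]
    have h2 : ∀ {τ : Type} (s : κ → τ → Prop), Comp u (Comp v s) = s := fun s => by
      rw [← comp_assoc, huv, eq_comp']
    simp only [comp_assoc, h2, huv, comp_eq']

end Frame

variable {M : Type} [Monoid M] {Q : Type} [Finite Q] (T : TW M Q)

/-- In a corner of least rank, an elementary relation can be moved to any pair of points. -/
theorem exists_min_corner {E : M} (hE : E * E = E) {ι : Type} (fr : Frame E ι) {x : M}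
    (hx : In E x) {a b : ι} (hab : a ≠ b) (hρ : fr.ρ x = elem a b) :
    ∃ (E0 : M) (_ : E0 * E0 = E0) (fr0 : Frame E0 ι), ∀ a' b', a' ≠ b' →
      ∃ y, In E0 y ∧ fr0.ρ y = elem a' b' ∧ (T.Mov E0 y).ncard ≤ (T.Mov E x).ncard := by
  classical
  have := T.finite
  have hex : ∃ n, ∃ E0, In E E0 ∧ E0 * E0 = E0 ∧ fr.ρ E0 = Eq ∧ T.rank E0 = n :=
    ⟨_, E, ⟨hE, hE⟩, hE, fr.one, rfl⟩
  obtain ⟨E0, h1, h2, h3, h4⟩ := Nat.find_spec hex
  have hmin : ∀ F, In E F → F * F = F → fr.ρ F = Eq → T.rank E0 ≤ T.rank F := by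
    intro F a1 a2 a3
    rw [h4]
    exact Nat.find_min' hex ⟨F, a1, a2, a3, rfl⟩
  let fr0 : Frame E0 ι := fr.sub Eq Eq (comp_eq' _) h1 h2 (by rw [h3, comp_eq'])
  have hρ0 : ∀ y, fr0.ρ y = fr.ρ y := fun y => by
    change Comp (Comp Eq (fr.ρ y)) Eq = _
    rw [comp_eq', eq_comp']
  refine ⟨E0, h2, fr0, fun a' b' hab' => ?_⟩
  obtain ⟨σ, hσa, hσb⟩ : ∃ σ : Equiv.Perm ι, σ a' = a ∧ σ b' = b := by
    refine ⟨(Equiv.swap a' a).trans (Equiv.swap (Equiv.swap a' a b') b), ?_, by simp⟩
    simp only [Equiv.trans_apply, Equiv.swap_apply_left]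
    apply Equiv.swap_apply_of_ne_of_ne _ hab
    intro h
    apply hab'
    apply (Equiv.swap a' a).injective
    rw [← h, Equiv.swap_apply_left]
  obtain ⟨g, hg, hgρ⟩ := fr0.surj (fun i j => σ i = j)
  obtain ⟨g', hg', hgρ'⟩ := fr0.surj (fun i j => i = σ j)
  have hh : In E0 (g * g') := hg.mul hg'
  have hhρ : fr0.ρ (g * g') = Eq := by
    rw [fr0.mul hg hg', hgρ, hgρ']
    funext i j
    simp [Comp]
  obtain ⟨n, hn⟩ := exists_idem_pow (g * g')
  have hE0 : (g * g') ^ (n + 1) = E0 := by
    apply T.eq_of_mov (hh.pow n)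
    have a1 := T.mov_idem (hh.pow n) hn
    have a2 := hmin _ (h1.trans (hh.pow n)) hn
      (by rw [← hρ0]; exact fr0.pow hh hhρ (comp_eq' _) n)
    omega
  set v := g' * (g * g') ^ (2 * n + 1) with hv
  have hvIn : In E0 v := hg'.mul (hh.pow _)
  have hgv : g * v = E0 := by
    rw [hv, ← mul_assoc, ← pow_succ', show 2 * n + 1 + 1 = (n + 1) + (n + 1) by ring, pow_add, hE0,
      h2]
  have hx0 : In E0 (E0 * x * E0) := In.sandwich h2 x
  refine ⟨g * (E0 * x * E0) * v, (hg.mul hx0).mul hvIn, ?_, ?_⟩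
  · rw [fr0.mul (hg.mul hx0) hvIn, fr0.mul hg hx0, hv, fr0.mul hg' (hh.pow _),
      fr0.pow hh hhρ (comp_eq' _), hgρ, hgρ', hρ0, fr.mul (h1.mul hx) h1, fr.mul h1 hx, h3, hρ,
      comp_eq', comp_eq', eq_comp']
    funext i j
    simp only [Comp, elem, exists_eq_right, exists_eq_left', ← hσa, ← hσb,
      EmbeddingLike.apply_eq_iff_eq]
  · exact (T.mov_ctx hg.2 hvIn.1 hx0 hgv h2 hg.1 hvIn.2).trans
      (T.mov_ctx h1.2 h1.1 hx h2 h2 h2 h2)

/-- The relation on `ι` that deletes `c` and has the extra edges `s`. -/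
def bip {ι : Type} (c : ι) (s : Finset (ι × ι)) : ι → ι → Prop :=
  fun i j => (i = j ∧ i ≠ c) ∨ (i, j) ∈ s

theorem main_bound (n : ℕ) : ∀ {E : M} (_ : E * E = E) {ι : Type} [Fintype ι] (fr : Frame E ι)
    (_ : 2 + 15 * n ≤ Fintype.card ι) {x : M} (_ : In E x) {a b : ι} (_ : a ≠ b)
    (_ : fr.ρ x = elem a b), 2 ^ n ≤ (T.Mov E x).ncard := by
  classical
  have := T.finite
  induction n with
  | zero =>
    intro E hE ι _ fr _ x hx a b hab hρ
    by_contra hlt
    have h0 : (T.Mov E x).ncard = 0 := by simpa using hlt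
    rw [T.eq_of_mov hx h0, fr.one] at hρ
    apply hab
    rw [hρ]
    exact Or.inr ⟨rfl, rfl⟩
  | succ n ih =>
    intro E0 hE0 ι _ fr0 hcard x hx a b hab hρ
    obtain ⟨E, hE, fr, hy⟩ := exists_min_corner T hE0 fr0 hx hab hρ
    set ε := (T.Mov E0 x).ncard
    choose! y hy1 hy2 hy3 using hy
    obtain ⟨e⟩ : Nonempty (Option (Fin 8 ⊕ Fin 8) ↪ ι) :=
      Function.Embedding.nonempty_of_card_le (by simp; omega)
    set c := e none with hc
    let jj : Fin 8 → ι := fun i => e (some (.inl i))
    let tt : Fin 8 → ι := fun i => e (some (.inr i))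
    have jc : ∀ i, jj i ≠ c := fun i h => by simpa using e.injective h
    have tc : ∀ i, c ≠ tt i := fun i h => by simpa using e.injective h
    have jt : ∀ i k, jj i ≠ tt k := fun i k h => by simpa using e.injective h
    have jinj : ∀ i k, jj i = jj k → i = k := fun i k h => by simpa using e.injective h
    have tinj : ∀ i k, tt i = tt k → i = k := fun i k h => by simpa using e.injective h
    let ed : Fin 8 × Fin 8 → ι × ι := fun p => (jj p.1, tt p.2)
    have bip_mem : ∀ (s : Finset (Fin 8 × Fin 8)) i j, bip c (s.image ed) i j ↔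
        (i = j ∧ i ≠ c) ∨ ∃ p ∈ s, jj p.1 = i ∧ tt p.2 = j := by
      intro s i j
      simp [bip, ed]
    have bip_comp : ∀ s s' : Finset (Fin 8 × Fin 8),
        Comp (bip c (s.image ed)) (bip c (s'.image ed)) = bip c ((s ∪ s').image ed) := by
      intro s s'
      funext i j
      apply propext
      simp only [Comp, bip_mem, Finset.mem_union]
      constructor
      · rintro ⟨k, ⟨rfl, h1⟩ | ⟨p, hp, rfl, rfl⟩, ⟨rfl, h2⟩ | ⟨p', hp', h2, rfl⟩⟩
        · exact Or.inl ⟨rfl, h1⟩
        · exact Or.inr ⟨p', Or.inr hp', h2, rfl⟩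
        · exact Or.inr ⟨p, Or.inl hp, rfl, rfl⟩
        · exact absurd h2 (jt _ _)
      · rintro (⟨rfl, h1⟩ | ⟨p, hp | hp, rfl, rfl⟩)
        · exact ⟨i, Or.inl ⟨rfl, h1⟩, Or.inl ⟨rfl, h1⟩⟩
        · exact ⟨_, Or.inr ⟨p, hp, rfl, rfl⟩, Or.inl ⟨rfl, (tc _).symm⟩⟩
        · exact ⟨_, Or.inl ⟨rfl, jc _⟩, Or.inr ⟨p, hp, rfl, rfl⟩⟩
    obtain ⟨F, hF, hFF, hFρ⟩ := fr.exists_idem ⟨hE, hE⟩ hE (r := bip c ((∅ : Finset _).image ed))
      (by rw [fr.one, comp_eq', eq_comp']) (by rw [bip_comp, Finset.union_self])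
    let Y : Fin 8 × Fin 8 → M := fun p => F * (y (jj p.1) c * y c (tt p.2)) * F
    have hY : ∀ p, In F (Y p) := fun p => In.sandwich hFF _
    have hyy : ∀ p : Fin 8 × Fin 8, In E (y (jj p.1) c * y c (tt p.2)) :=
      fun p => (hy1 _ _ (jc _)).mul (hy1 _ _ (tc _))
    have hYρ : ∀ p, fr.ρ (Y p) = bip c (({p} : Finset _).image ed) := by
      intro p
      rw [fr.mul (hF.mul (hyy p)) hF, fr.mul hF (hyy p), fr.mul (hy1 _ _ (jc _)) (hy1 _ _ (tc _)),
        hFρ, hy2 _ _ (jc _), hy2 _ _ (tc _)]
      funext i j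
      apply propext
      simp only [Comp, bip_mem, elem, Finset.notMem_empty, false_and, exists_false, or_false,
        Finset.mem_singleton, exists_eq_left]
      constructor
      · rintro ⟨k, ⟨l, ⟨rfl, h1⟩, m, rfl | ⟨rfl, rfl⟩, rfl | ⟨h2, rfl⟩⟩, rfl, h3⟩
        · exact Or.inl ⟨rfl, h1⟩
        · exact absurd h2 h1
        · exact absurd rfl h3
        · exact Or.inr ⟨rfl, rfl⟩
      · rintro (⟨rfl, h1⟩ | ⟨rfl, rfl⟩)
        · exact ⟨i, ⟨i, ⟨rfl, h1⟩, i, Or.inl rfl, Or.inl rfl⟩, rfl, h1⟩
        · exact ⟨_, ⟨_, ⟨rfl, jc _⟩, c, Or.inr ⟨rfl, rfl⟩, Or.inr ⟨rfl, rfl⟩⟩, rfl, (tc _).symm⟩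
    let S : Set (Q × Bool) :=
      (⋃ i, T.Mov E (y (jj i) c)) ∪ ⋃ i, T.Mov E (y c (tt i))
    have hS : S.ncard ≤ 16 * ε := by
      have a1 := Set.ncard_iUnion_le_of_fintype fun i => T.Mov E (y (jj i) c)
      have a2 := Set.ncard_iUnion_le_of_fintype fun i => T.Mov E (y c (tt i))
      have b1 := Finset.sum_le_sum (s := Finset.univ) fun i _ => hy3 _ _ (jc i)
      have b2 := Finset.sum_le_sum (s := Finset.univ) fun i _ => hy3 _ _ (tc i)
      simp only [Finset.sum_const, Finset.card_univ, Fintype.card_fin, smul_eq_mul] at b1 b2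
      have := Set.ncard_union_le (⋃ i, T.Mov E (y (jj i) c)) (⋃ i, T.Mov E (y c (tt i)))
      change _ ≤ _ at this
      simp only [S]
      omega
    let Bad : Set (Q × Bool) := {s | ∃ p ∈ S, T.R F F p s}
    have hBad : Bad.ncard ≤ 16 * ε := (T.ncard_le_of_R fun s hs => hs).trans hS
    have hgood : ∀ s ∈ T.Lab F, s ∉ Bad → ∀ p, T.Fix F (Y p) s := by
      intro s hs hb p
      apply T.ctx hF.2 hF.1 (hyy p) hFF hFF hFF hFF hs
      intro p' hp' hR
      have hn : p' ∉ S := fun h => hb ⟨p', h, hR⟩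
      apply T.fix_mul (hy1 _ _ (jc _)) (hy1 _ _ (tc _))
      · by_contra h
        exact hn (Or.inl (Set.mem_iUnion.mpr ⟨p.1, hp', h⟩))
      · by_contra h
        exact hn (Or.inr (Set.mem_iUnion.mpr ⟨p.2, hp', h⟩))
    have chain : ∀ s : Finset (Fin 8 × Fin 8), ∃ P, In F P ∧ P * P = P ∧
        fr.ρ P = bip c (s.image ed) ∧ (∀ l ∈ T.Lab F, l ∉ Bad → T.Fix F P l) ∧
        s.card * 2 ^ n + 2 * T.rank P ≤ 2 * T.rank F := by
      intro s
      induction s using Finset.induction_on with
      | empty => exact ⟨F, ⟨hFF, hFF⟩, hFF, hFρ, fun l hl _ => T.fix_id hFF hl, by simp⟩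
      | insert p s hps ihs =>
        obtain ⟨P, hP, hPP, hPρ, hPfix, hPrank⟩ := ihs
        obtain ⟨k, hk⟩ := exists_idem_pow (P * Y p * P)
        have hPE : In E P := hF.trans hP
        have hZ : In P (P * Y p * P) := In.sandwich hPP _
        have hP'ρ : fr.ρ ((P * Y p * P) ^ (k + 1)) = bip c ((insert p s).image ed) := by
          refine fr.pow (hPE.trans hZ) ?_ (by rw [bip_comp, Finset.union_self]) k
          rw [fr.mul (hPE.mul (hF.trans (hY p))) hPE, fr.mul hPE (hF.trans (hY p)), hPρ, hYρ,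
            bip_comp, bip_comp]
          congr 2
          ext z
          simp only [Finset.mem_union, Finset.mem_singleton, Finset.mem_insert]
          tauto
        refine ⟨_, hP.trans (hZ.pow k), hk, hP'ρ, fun l hl hb => ?_, ?_⟩
        · exact T.fix_pow (hP.trans hZ) (T.fix_mul (hP.mul (hY p)) hP
            (T.fix_mul hP (hY p) (hPfix l hl hb) (hgood l hl hb p)) (hPfix l hl hb)) k
        · set P' := (P * Y p * P) ^ (k + 1) with hP'
          have hP'P : In P P' := hZ.pow k
          have m1 := T.mov_idem hP'P hk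
          let good : ι → Prop := fun i =>
            i ≠ c ∧ (∀ l, jj l = i → l = p.1) ∧ ∀ l, tt l = i → l = p.2
          let κ := {i // good i}
          let u : κ → ι → Prop := fun k i => bip c (s.image ed) k.1 i
          let v : ι → κ → Prop := fun i k => bip c (s.image ed) i k.1
          have hsand : ∀ s' : Finset (Fin 8 × Fin 8), Comp (Comp u (bip c (s'.image ed))) v =
              fun k l => bip c ((s ∪ s' ∪ s).image ed) k.1 l.1 := by
            intro s'
            rw [← bip_comp, ← bip_comp]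
            rfl
          have hres : ∀ (s' : Finset (Fin 8 × Fin 8)) (k l : κ), bip c (s'.image ed) k.1 l.1 ↔
              k = l ∨ (p ∈ s' ∧ k.1 = jj p.1 ∧ l.1 = tt p.2) := by
            intro s' k l
            rw [bip_mem]
            constructor
            · rintro (⟨h1, -⟩ | ⟨q, hq, h1, h2⟩)
              · exact Or.inl (Subtype.ext h1)
              · have a1 := k.2.2.1 _ h1
                have a2 := l.2.2.2 _ h2
                have : q = p := Prod.ext a1 a2
                subst this
                exact Or.inr ⟨hq, h1.symm, h2.symm⟩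
            · rintro (rfl | ⟨h1, h2, h3⟩)
              · exact Or.inl ⟨rfl, k.2.1⟩
              · exact Or.inr ⟨p, h1, h2.symm, h3.symm⟩
          have hbb : Comp (bip c (s.image ed)) (bip c (s.image ed)) = bip c (s.image ed) := by
            rw [bip_comp, Finset.union_self]
          have huv : Comp u v = Eq := by
            funext k l
            apply propext
            have : Comp u v k l ↔ bip c (s.image ed) k.1 l.1 := by
              conv_rhs => rw [← hbb]
              rfl
            rw [this, hres]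
            simp [hps]
          have hbv : Comp (bip c (s.image ed)) v = v := by
            funext i k
            exact congrFun (congrFun hbb i) k.1
          have hub : Comp u (bip c (s.image ed)) = u := by
            funext k i
            exact congrFun (congrFun hbb k.1) i
          obtain ⟨G, hG, hGG, hGρ⟩ := fr.exists_idem hPE hPP (r := Comp v u)
            (by rw [hPρ, ← comp_assoc, hbv, comp_assoc, hub])
            (by rw [comp_assoc, ← comp_assoc (r := u), huv, eq_comp'])
          have hGE : In E G := hPE.trans hG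
          let a' : κ := ⟨jj p.1, jc _, fun l h => jinj _ _ h, fun l h => absurd h.symm (jt _ _)⟩
          let b' : κ := ⟨tt p.2, (tc _).symm, fun l h => absurd h (jt _ _), fun l h => tinj _ _ h⟩
          have hab' : a' ≠ b' := fun h => jt _ _ (congrArg Subtype.val h)
          have hκ : 2 + 15 * n ≤ Fintype.card κ := by
            have h1 : Fintype.card {i // ¬ good i} ≤
                Fintype.card (Option ({l : Fin 8 // l ≠ p.1} ⊕ {l : Fin 8 // l ≠ p.2})) := by
              let f : Option ({l : Fin 8 // l ≠ p.1} ⊕ {l : Fin 8 // l ≠ p.2}) → {i // ¬ good i} :=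
                fun z => match z with
                | none => ⟨c, fun h => h.1 rfl⟩
                | some (.inl l) => ⟨jj l.1, fun h => l.2 (h.2.1 _ rfl)⟩
                | some (.inr l) => ⟨tt l.1, fun h => l.2 (h.2.2 _ rfl)⟩
              apply Fintype.card_le_of_surjective f
              rintro ⟨i, hi⟩
              by_cases h1 : i = c
              · exact ⟨none, Subtype.ext h1.symm⟩
              by_cases h2 : ∀ l, jj l = i → l = p.1
              · have h3 : ¬ ∀ l, tt l = i → l = p.2 := fun h3 => hi ⟨h1, h2, h3⟩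
                push Not at h3
                obtain ⟨l, h4, h5⟩ := h3
                exact ⟨some (.inr ⟨l, h5⟩), Subtype.ext h4⟩
              · push Not at h2
                obtain ⟨l, h4, h5⟩ := h2
                exact ⟨some (.inl ⟨l, h5⟩), Subtype.ext h4⟩
            have h2 := Fintype.card_subtype_compl good
            have h3 : Fintype.card κ ≤ Fintype.card ι := Fintype.card_subtype_le _
            simp only [Fintype.card_option, Fintype.card_sum, ne_eq, Fintype.card_subtype_compl,
              Fintype.card_fin, Fintype.card_unique] at h1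
            change _ ≤ Fintype.card {i // good i}
            change Fintype.card {i // good i} ≤ _ at h3
            omega
          have m2 := ih hGG (fr.sub u v huv hGE hGG hGρ) hκ (In.sandwich hGG P') hab' (by
            change Comp (Comp u (fr.ρ (G * P' * G))) v = _
            have hP'E : In E P' := hPE.trans hP'P
            rw [fr.mul (hGE.mul hP'E) hGE, fr.mul hGE hP'E, hGρ, hP'ρ]
            have h2 : ∀ {τ : Type} (s : κ → τ → Prop), Comp u (Comp v s) = s := fun s => by
              rw [← comp_assoc, huv, eq_comp']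
            simp only [comp_assoc, h2, huv, comp_eq']
            rw [← comp_assoc, hsand]
            funext k l
            apply propext
            rw [hres]
            have e1 : k = a' ↔ k.1 = jj p.1 := Subtype.ext_iff
            have e2 : l = b' ↔ l.1 = tt p.2 := Subtype.ext_iff
            simp [elem, e1, e2])
          have m3 := T.mov_ctx hG.2 hG.1 hP'P hGG hGG hGG hGG
          rw [Finset.card_insert_of_notMem hps]
          nlinarith
    obtain ⟨P, hP, hPP, -, hPfix, hPrank⟩ := chain Finset.univ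
    have hsub : T.Lab F ⊆ T.Lab P ∪ Bad := by
      intro l hl
      by_cases hb : l ∈ Bad
      · exact Or.inr hb
      · exact Or.inl (T.lab_of_fix (hPfix l hl hb))
    have h1 := (Set.ncard_le_ncard hsub (Set.toFinite _)).trans (Set.ncard_union_le _ _)
    simp only [Finset.card_univ, Fintype.card_prod, Fintype.card_fin] at hPrank
    change T.rank F ≤ T.rank P + _ at h1
    rw [pow_succ]
    omega

theorem card_bound {Q : Type} [Fintype Q] (T : TW M Q) {h : ℕ} (hh : 2 ≤ h)
    (fr : Frame (1 : M) (Fin h)) : 2 ^ ((h - 2) / 15) ≤ 2 * Fintype.card Q := by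
  obtain ⟨x, hx, hρ⟩ := fr.surj (elem ⟨0, by omega⟩ ⟨1, by omega⟩)
  have := main_bound T ((h - 2) / 15) (mul_one 1) fr (by simp; omega) hx (by simp) hρ
  exact this.trans ((T.mov_le_rank _ _).trans (T.rank_le _))

end Vale.Agent.P343
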