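import Mathlib
import Vale.Agent.P343.Abstract

/-!
Runs on words and the monoid of behaviours.
-/

set_option linter.unusedSectionVars false

namespace Vale.Agent.P343

/-- The axioms of two-way behaviours without extensionality. -/
structure PreTW (M : Type) [Monoid M] (Q : Type) where
  R : M → M → Q × Bool → Q × Bool → Prop
  det : ∀ {u v p o o'}, R u v p o → R u v p o' → o = o'
  unitR : ∀ u q, R u 1 (q, true) (q, true)
  unitL : ∀ v q, R 1 v (q, false) (q, false)
  liftR : ∀ (U V : M) {u v p q o}, R u v p (q, true) → R (U * u * v) V (q, true) o →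
    R (U * u) (v * V) p o
  liftL : ∀ (U V : M) {u v p q o}, R u v p (q, false) → R U (u * v * V) (q, false) o →
    R (U * u) (v * V) p o
  decomp : ∀ (U u v V : M) {p o}, R (U * u) (v * V) p o → ∃ q,
    (R u v p (q, true) ∧ R (U * u * v) V (q, true) o) ∨
    (R u v p (q, false) ∧ R U (u * v * V) (q, false) o)
  pathR : ∀ (u E v : M) {q o}, R (u * E) v (q, true) o → Mid (R E v) (R u E) (q, true) o
  pathL : ∀ (u E v : M) {q o}, R u (E * v) (q, false) o → Mid (R E v) (R u E) (q, false) o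

theorem Mid.mono {Q : Type} {A B A' B' : Q × Bool → Q × Bool → Prop}
    (hA : ∀ q o, A (q, true) o → A' (q, true) o) (hB : ∀ q o, B (q, false) o → B' (q, false) o)
    {p o : Q × Bool} (h : Mid A B p o) : Mid A' B' p o := by
  induction h with
  | exitR q q' h => exact .exitR q q' (hA _ _ h)
  | bounceR q q' o h _ ih => exact .bounceR q q' o (hA _ _ h) ih
  | exitL q q' h => exact .exitL q q' (hB _ _ h)
  | bounceL q q' o h _ ih => exact .bounceL q q' o (hB _ _ h) ih

namespace PreTW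

variable {M : Type} [Monoid M] {Q : Type} (T : PreTW M Q)

theorem cast {u v u' v' : M} {p o : Q × Bool} (h : T.R u v p o) (e1 : u' = u) (e2 : v' = v) :
    T.R u' v' p o := by subst e1 e2; exact h

/-- Pulling back along a homomorphism. -/
def comap {N : Type} [Monoid N] (φ : N →* M) : PreTW N Q where
  R u v := T.R (φ u) (φ v)
  det := T.det
  unitR u q := by rw [map_one]; exact T.unitR _ _
  unitL u q := by rw [map_one]; exact T.unitL _ _
  liftR U V u v p q o h1 h2 := by
    simp only [map_mul] at *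
    exact T.liftR _ _ h1 h2
  liftL U V u v p q o h1 h2 := by
    simp only [map_mul] at *
    exact T.liftL _ _ h1 h2
  decomp U u v V p o h := by
    simp only [map_mul] at *
    exact T.decomp _ _ _ _ h
  pathR u E v q o h := by
    simp only [map_mul] at *
    exact T.pathR _ _ _ h
  pathL u E v q o h := by
    simp only [map_mul] at *
    exact T.pathL _ _ _ h

theorem mid_R {u v : M} {p o : Q × Bool} (h : Mid (T.R 1 v) (T.R u 1) p o) : T.R u v p o := by
  induction h with
  | exitR q q' h => exact T.cast (T.liftR u 1 h (T.unitR _ _)) (mul_one u).symm (mul_one v).symm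
  | bounceR q q' o h _ ih =>
    exact T.cast (T.liftL u 1 h (T.cast ih rfl (by simp))) (mul_one u).symm (mul_one v).symm
  | exitL q q' h => exact T.cast (T.liftL 1 v h (T.unitL _ _)) (one_mul u).symm (one_mul v).symm
  | bounceL q q' o h _ ih =>
    exact T.cast (T.liftR 1 v h (T.cast ih (by simp) rfl)) (one_mul u).symm (one_mul v).symm

/-- Equality of behaviours. -/
def Eqv (x y : M) : Prop :=
  (∀ q o, T.R 1 x (q, true) o ↔ T.R 1 y (q, true) o) ∧
    (∀ q o, T.R x 1 (q, false) o ↔ T.R y 1 (q, false) o)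

theorem Eqv.symm' {x y : M} (h : T.Eqv x y) : T.Eqv y x :=
  ⟨fun q o => (h.1 q o).symm, fun q o => (h.2 q o).symm⟩

theorem R_congr {u u' v v' : M} (hu : T.Eqv u u') (hv : T.Eqv v v') {p o : Q × Bool}
    (h : T.R u v p o) : T.R u' v' p o := by
  apply T.mid_R
  refine Mid.mono (fun q o => (hv.1 q o).mp) (fun q o => (hu.2 q o).mp) ?_
  obtain ⟨q, d⟩ := p
  cases d
  · exact T.pathL u 1 v (T.cast h rfl (one_mul v))
  · exact T.pathR u 1 v (T.cast h (mul_one u) rfl)

theorem mul_aux {u u' v v' : M} (hu : T.Eqv u u') (hv : T.Eqv v v') :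
    (∀ q o, T.R 1 (u * v) (q, true) o → T.R 1 (u' * v') (q, true) o) ∧
    (∀ q o, T.R (u * v) 1 (q, false) o → T.R (u' * v') 1 (q, false) o) := by
  constructor
  · intro q o h
    obtain ⟨q1, ⟨h1, h2⟩ | ⟨h1, h2⟩⟩ := T.decomp 1 1 u v (T.cast h (mul_one 1) rfl)
    · have h3 := T.R_congr hu hv (T.cast h2 (by simp) rfl : T.R u v _ _)
      exact T.cast (T.liftR 1 v' ((hu.1 _ _).mp h1) (T.cast h3 (by simp) rfl)) (mul_one 1).symm rfl
    · rw [T.det h2 (T.unitL _ _)]
      exact T.cast (T.liftL 1 v' ((hu.1 _ _).mp h1) (T.unitL _ _)) (mul_one 1).symm rfl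
  · intro q o h
    obtain ⟨q1, ⟨h1, h2⟩ | ⟨h1, h2⟩⟩ := T.decomp u v 1 1 (T.cast h rfl (mul_one 1))
    · rw [T.det h2 (T.unitR _ _)]
      exact T.cast (T.liftR u' 1 ((hv.2 _ _).mp h1) (T.unitR _ _)) rfl (mul_one 1).symm
    · have h3 := T.R_congr hu hv (T.cast h2 rfl (by simp) : T.R u v _ _)
      exact T.cast (T.liftL u' 1 ((hv.2 _ _).mp h1) (T.cast h3 rfl (by simp))) rfl (mul_one 1).symm

/-- Equality of behaviours is a congruence. -/
def con : Con M where
  r := T.Eqv
  iseqv := ⟨fun _ => ⟨fun _ _ => Iff.rfl, fun _ _ => Iff.rfl⟩, fun h => h.symm',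
    fun h h' => ⟨fun q o => (h.1 q o).trans (h'.1 q o), fun q o => (h.2 q o).trans (h'.2 q o)⟩⟩
  mul' hu hv := ⟨fun q o => ⟨(T.mul_aux hu hv).1 q o, (T.mul_aux hu.symm' hv.symm').1 q o⟩,
    fun q o => ⟨(T.mul_aux hu hv).2 q o, (T.mul_aux hu.symm' hv.symm').2 q o⟩⟩

/-- The relation on classes. -/
def RQ (x y : T.con.Quotient) (p o : Q × Bool) : Prop :=
  ∃ u v : M, (u : T.con.Quotient) = x ∧ (v : T.con.Quotient) = y ∧ T.R u v p o

theorem RQ_mk (u v : M) : T.RQ (u : T.con.Quotient) (v : T.con.Quotient) = T.R u v := by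
  funext p o
  apply propext
  constructor
  · rintro ⟨u', v', h1, h2, h⟩
    exact T.R_congr ((Con.eq _).mp h1) ((Con.eq _).mp h2) h
  · exact fun h => ⟨u, v, rfl, rfl, h⟩

/-- The monoid of behaviours. -/
def quot : TW T.con.Quotient Q where
  R := T.RQ
  det := by
    intro u v p o o'
    induction u using Con.induction_on
    induction v using Con.induction_on
    rw [RQ_mk]
    exact T.det
  unitR u q := by
    induction u using Con.induction_on
    rw [← Con.coe_one, RQ_mk]
    exact T.unitR _ _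
  unitL u q := by
    induction u using Con.induction_on
    rw [← Con.coe_one, RQ_mk]
    exact T.unitL _ _
  liftR U V u v p q o := by
    induction u using Con.induction_on
    induction v using Con.induction_on
    induction U using Con.induction_on
    induction V using Con.induction_on
    simp only [← Con.coe_mul, RQ_mk]
    exact T.liftR _ _
  liftL U V u v p q o := by
    induction u using Con.induction_on
    induction v using Con.induction_on
    induction U using Con.induction_on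
    induction V using Con.induction_on
    simp only [← Con.coe_mul, RQ_mk]
    exact T.liftL _ _
  decomp U u v V p o := by
    induction u using Con.induction_on
    induction v using Con.induction_on
    induction U using Con.induction_on
    induction V using Con.induction_on
    simp only [← Con.coe_mul, RQ_mk]
    exact T.decomp _ _ _ _
  pathR u E v q o := by
    induction u using Con.induction_on
    induction v using Con.induction_on
    induction E using Con.induction_on
    simp only [← Con.coe_mul, RQ_mk]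
    exact T.pathR _ _ _
  pathL u E v q o := by
    induction u using Con.induction_on
    induction v using Con.induction_on
    induction E using Con.induction_on
    simp only [← Con.coe_mul, RQ_mk]
    exact T.pathL _ _ _
  ext := by
    intro x y
    induction x using Con.induction_on
    induction y using Con.induction_on
    simp only [← Con.coe_one, RQ_mk]
    exact fun h1 h2 => (Con.eq _).mpr ⟨h1, h2⟩

end PreTW

section runs

variable {Γ P : Type} (δ : Γ → P → P × Bool → Prop)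

/-- Runs with a step count; the left part of the tape is stored reversed. -/
inductive RunN : ℕ → List Γ → List Γ → P × Bool → P × Bool → Prop
  | doneR (l : List Γ) (q : P) : RunN 0 l [] (q, true) (q, true)
  | doneL (r : List Γ) (q : P) : RunN 0 [] r (q, false) (q, false)
  | RR {n l r a q q' o} : δ a q (q', true) → RunN n (a :: l) r (q', true) o →
      RunN (n + 1) l (a :: r) (q, true) o
  | RL {n l r a q q' o} : δ a q (q', false) → RunN n l (a :: r) (q', false) o →
      RunN (n + 1) l (a :: r) (q, true) o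
  | LR {n l r a q q' o} : δ a q (q', true) → RunN n (a :: l) r (q', true) o →
      RunN (n + 1) (a :: l) r (q, false) o
  | LL {n l r a q q' o} : δ a q (q', false) → RunN n l (a :: r) (q', false) o →
      RunN (n + 1) (a :: l) r (q, false) o

variable {δ}

theorem RunN.invR {n : ℕ} {l r : List Γ} {a : Γ} {q : P} {o : P × Bool}
    (h : RunN δ n l (a :: r) (q, true) o) : ∃ n' q', n = n' + 1 ∧
      ((δ a q (q', true) ∧ RunN δ n' (a :: l) r (q', true) o) ∨
       (δ a q (q', false) ∧ RunN δ n' l (a :: r) (q', false) o)) := by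
  cases h with
  | RR h1 h2 => exact ⟨_, _, rfl, Or.inl ⟨h1, h2⟩⟩
  | RL h1 h2 => exact ⟨_, _, rfl, Or.inr ⟨h1, h2⟩⟩

theorem RunN.invL {n : ℕ} {l r : List Γ} {a : Γ} {q : P} {o : P × Bool}
    (h : RunN δ n (a :: l) r (q, false) o) : ∃ n' q', n = n' + 1 ∧
      ((δ a q (q', true) ∧ RunN δ n' (a :: l) r (q', true) o) ∨
       (δ a q (q', false) ∧ RunN δ n' l (a :: r) (q', false) o)) := by
  cases h with
  | LR h1 h2 => exact ⟨_, _, rfl, Or.inl ⟨h1, h2⟩⟩
  | LL h1 h2 => exact ⟨_, _, rfl, Or.inr ⟨h1, h2⟩⟩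

theorem RunN.nilR {n : ℕ} {l : List Γ} {q : P} {o : P × Bool}
    (h : RunN δ n l [] (q, true) o) : o = (q, true) := by
  cases h with
  | doneR => rfl

theorem RunN.nilL {n : ℕ} {r : List Γ} {q : P} {o : P × Bool}
    (h : RunN δ n [] r (q, false) o) : o = (q, false) := by
  cases h with
  | doneL => rfl

theorem RunN.zero {l r : List Γ} {p o : P × Bool} (h : RunN δ 0 l r p o) : o = p := by
  cases h <;> rfl

theorem RunN.det (hδ : ∀ a q o o', δ a q o → δ a q o' → o = o') {n : ℕ} {l r : List Γ}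
    {p o : P × Bool} (h : RunN δ n l r p o) : ∀ {n' o'}, RunN δ n' l r p o' → o = o' := by
  induction h with
  | doneR l q => exact fun h' => h'.nilR.symm
  | doneL r q => exact fun h' => h'.nilL.symm
  | RR h1 _ ih =>
    intro n' o' h'
    obtain ⟨_, _, -, ⟨h3, h4⟩ | ⟨h3, h4⟩⟩ := h'.invR <;> cases hδ _ _ _ _ h1 h3
    exact ih h4
  | RL h1 _ ih =>
    intro n' o' h'
    obtain ⟨_, _, -, ⟨h3, h4⟩ | ⟨h3, h4⟩⟩ := h'.invR <;> cases hδ _ _ _ _ h1 h3
    exact ih h4
  | LR h1 _ ih =>
    intro n' o' h'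
    obtain ⟨_, _, -, ⟨h3, h4⟩ | ⟨h3, h4⟩⟩ := h'.invL <;> cases hδ _ _ _ _ h1 h3
    exact ih h4
  | LL h1 _ ih =>
    intro n' o' h'
    obtain ⟨_, _, -, ⟨h3, h4⟩ | ⟨h3, h4⟩⟩ := h'.invL <;> cases hδ _ _ _ _ h1 h3
    exact ih h4

theorem RunN.lift {n : ℕ} {l r : List Γ} {p o' : P × Bool} (h : RunN δ n l r p o')
    (L R : List Γ) {m : ℕ} {o : P × Bool}
    (h1 : o'.2 = true → RunN δ m (r.reverse ++ l ++ L) R o' o)
    (h2 : o'.2 = false → RunN δ m L (l.reverse ++ r ++ R) o' o) :
    RunN δ (m + n) (l ++ L) (r ++ R) p o := by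
  induction h with
  | doneR l q => simpa using h1 rfl
  | doneL r q => simpa using h2 rfl
  | RR h _ ih => exact .RR h (ih (by simpa using h1) (by simpa using h2))
  | RL h _ ih => exact .RL h (ih h1 h2)
  | LR h _ ih => exact .LR h (ih h1 h2)
  | LL h _ ih => exact .LL h (ih (by simpa using h1) (by simpa using h2))

theorem RunN.decomp (L R : List Γ) {o : P × Bool} (n : ℕ) : ∀ {l r : List Γ} {p : P × Bool},
    RunN δ n (l ++ L) (r ++ R) p o → ∃ n1 n2 q, n1 + n2 = n ∧
      ((RunN δ n1 l r p (q, true) ∧ RunN δ n2 (r.reverse ++ l ++ L) R (q, true) o) ∨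
       (RunN δ n1 l r p (q, false) ∧ RunN δ n2 L (l.reverse ++ r ++ R) (q, false) o)) := by
  induction n using Nat.strong_induction_on with
  | _ n ih =>
  intro l r p h
  obtain ⟨q, d⟩ := p
  cases d
  · cases l with
    | nil => exact ⟨0, n, q, by simp, Or.inr ⟨.doneL _ _, by simpa using h⟩⟩
    | cons a l =>
      obtain ⟨n', q', rfl, ⟨h1, h2⟩ | ⟨h1, h2⟩⟩ := RunN.invL h
      · obtain ⟨n1, n2, q2, e, ⟨h3, h4⟩ | ⟨h3, h4⟩⟩ := ih n' (by omega) (l := a :: l) h2
        · exact ⟨n1 + 1, n2, q2, by omega, Or.inl ⟨.LR h1 h3, h4⟩⟩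
        · exact ⟨n1 + 1, n2, q2, by omega, Or.inr ⟨.LR h1 h3, h4⟩⟩
      · obtain ⟨n1, n2, q2, e, ⟨h3, h4⟩ | ⟨h3, h4⟩⟩ := ih n' (by omega) (r := a :: r) h2
        · exact ⟨n1 + 1, n2, q2, by omega, Or.inl ⟨.LL h1 h3, by simpa using h4⟩⟩
        · exact ⟨n1 + 1, n2, q2, by omega, Or.inr ⟨.LL h1 h3, by simpa using h4⟩⟩
  · cases r with
    | nil => exact ⟨0, n, q, by simp, Or.inl ⟨.doneR _ _, by simpa using h⟩⟩
    | cons a r =>
      obtain ⟨n', q', rfl, ⟨h1, h2⟩ | ⟨h1, h2⟩⟩ := RunN.invR h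
      · obtain ⟨n1, n2, q2, e, ⟨h3, h4⟩ | ⟨h3, h4⟩⟩ := ih n' (by omega) (l := a :: l) h2
        · exact ⟨n1 + 1, n2, q2, by omega, Or.inl ⟨.RR h1 h3, by simpa using h4⟩⟩
        · exact ⟨n1 + 1, n2, q2, by omega, Or.inr ⟨.RR h1 h3, by simpa using h4⟩⟩
      · obtain ⟨n1, n2, q2, e, ⟨h3, h4⟩ | ⟨h3, h4⟩⟩ := ih n' (by omega) (r := a :: r) h2
        · exact ⟨n1 + 1, n2, q2, by omega, Or.inl ⟨.RL h1 h3, h4⟩⟩
        · exact ⟨n1 + 1, n2, q2, by omega, Or.inr ⟨.RL h1 h3, h4⟩⟩

variable (δ) in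
/-- Runs started at the boundary between two words. -/
def Rw (u v : List Γ) (p o : P × Bool) : Prop := ∃ n, RunN δ n u.reverse v p o

theorem path_aux (u E v : List Γ) (n : ℕ) :
    (∀ q o, RunN δ n (u ++ E).reverse v (q, true) o → Mid (Rw δ E v) (Rw δ u E) (q, true) o) ∧
    (∀ q o, RunN δ n u.reverse (E ++ v) (q, false) o → Mid (Rw δ E v) (Rw δ u E) (q, false) o) := by
  induction n using Nat.strong_induction_on with
  | _ n ih =>
  constructor
  · intro q o h
    obtain ⟨n1, n2, q2, e, ⟨h3, h4⟩ | ⟨h3, h4⟩⟩ :=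
      RunN.decomp u.reverse [] n (l := E.reverse) (r := v) (by simpa using h)
    · rw [h4.nilR]
      exact .exitR _ _ ⟨_, h3⟩
    · have : n1 ≠ 0 := fun h0 => by subst h0; simpa using h3.zero
      exact .bounceR _ _ _ ⟨_, h3⟩ ((ih n2 (by omega)).2 _ _ (by simpa using h4))
  · intro q o h
    obtain ⟨n1, n2, q2, e, ⟨h3, h4⟩ | ⟨h3, h4⟩⟩ :=
      RunN.decomp [] v n (l := u.reverse) (r := E) (by simpa using h)
    · have : n1 ≠ 0 := fun h0 => by subst h0; simpa using h3.zero
      exact .bounceL _ _ _ ⟨_, h3⟩ ((ih n2 (by omega)).1 _ _ (by simpa using h4))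
    · rw [h4.nilL]
      exact .exitL _ _ ⟨_, h3⟩

variable (δ) in
/-- Words with their runs. -/
def wordTW (hδ : ∀ a q o o', δ a q o → δ a q o' → o = o') : PreTW (FreeMonoid Γ) P where
  R u v := Rw δ u.toList v.toList
  det := fun ⟨_, h⟩ ⟨_, h'⟩ => h.det hδ h'
  unitR u q := ⟨0, .doneR _ _⟩
  unitL u q := ⟨0, .doneL _ _⟩
  liftR := by
    rintro U V u v p q o ⟨n, h1⟩ ⟨m, h2⟩
    refine ⟨m + n, ?_⟩
    have := h1.lift U.toList.reverse V.toList (m := m) (o := o) (fun _ => by simpa using h2)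
      (by simp)
    simpa using this
  liftL := by
    rintro U V u v p q o ⟨n, h1⟩ ⟨m, h2⟩
    refine ⟨m + n, ?_⟩
    have := h1.lift U.toList.reverse V.toList (m := m) (o := o) (by simp)
      (fun _ => by simpa using h2)
    simpa using this
  decomp := by
    rintro U u v V p o ⟨n, h⟩
    obtain ⟨n1, n2, q2, e, ⟨h3, h4⟩ | ⟨h3, h4⟩⟩ :=
      RunN.decomp U.toList.reverse V.toList n (l := u.toList.reverse) (r := v.toList)
        (by simpa using h)
    · exact ⟨q2, Or.inl ⟨⟨_, h3⟩, ⟨n2, by simpa using h4⟩⟩⟩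
    · exact ⟨q2, Or.inr ⟨⟨_, h3⟩, ⟨n2, by simpa using h4⟩⟩⟩
  pathR := fun u E v _ _ ⟨n, h⟩ => (path_aux u.toList E.toList v.toList n).1 _ _ h
  pathL := fun u E v _ _ ⟨n, h⟩ => (path_aux u.toList E.toList v.toList n).2 _ _ h

end runs

end Vale.Agent.P343
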