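import Mathlib
import Vale.Agent.P343.Defs
import Vale.Agent.P343.Frames
import Vale.Agent.P343.Words

/-!
Deterministic two-way automata for one-way liveness are exponentially large.
-/

set_option linter.unusedSectionVars false

namespace Vale.Agent.P343

open Relation

section det

variable {α Q : Type} (B : TwoNFA α Q)

/-- What happens on one cell, until the head leaves it or an accepting state is reached. -/
inductive Cell (s : Sym α) : Q → Option Q × Bool → Prop
  | acc (q : Q) : q ∈ B.accept → Cell s q (none, true)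
  | right (q q' : Q) : q ∉ B.accept → (q', Move.right) ∈ B.trans q s → Cell s q (some q', true)
  | left (q q' : Q) : q ∉ B.accept → (q', Move.left) ∈ B.trans q s → Cell s q (some q', false)
  | stay (q q' : Q) (o : Option Q × Bool) : q ∉ B.accept → (q', Move.stay) ∈ B.trans q s →
      Cell s q' o → Cell s q o

/-- The letter relation, with an extra state that records acceptance. -/
def dl (s : Sym α) : Option Q → Option Q × Bool → Prop
  | none, o => o = (none, true)
  | some q, o => Cell B s q o

variable {B}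

theorem Cell.det (hB : B.IsDet) {s : Sym α} {q : Q} {o : Option Q × Bool} (h : Cell B s q o) :
    ∀ {o'}, Cell B s q o' → o = o' := by
  induction h with
  | acc q hq =>
    intro o' h'
    cases h' with
    | acc => rfl
    | right _ _ h1 => exact absurd hq h1
    | left _ _ h1 => exact absurd hq h1
    | stay _ _ _ h1 => exact absurd hq h1
  | right q q' hq ht =>
    intro o' h'
    cases h' with
    | acc _ h1 => exact absurd h1 hq
    | right _ _ _ h2 => cases hB q s ht h2; rfl
    | left _ _ _ h2 => cases hB q s ht h2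
    | stay _ _ _ _ h2 => cases hB q s ht h2
  | left q q' hq ht =>
    intro o' h'
    cases h' with
    | acc _ h1 => exact absurd h1 hq
    | right _ _ _ h2 => cases hB q s ht h2
    | left _ _ _ h2 => cases hB q s ht h2; rfl
    | stay _ _ _ _ h2 => cases hB q s ht h2
  | stay q q' o hq ht _ ih =>
    intro o' h'
    cases h' with
    | acc _ h1 => exact absurd h1 hq
    | right _ _ _ h2 => cases hB q s ht h2
    | left _ _ _ h2 => cases hB q s ht h2
    | stay _ _ _ _ h2 h3 => cases hB q s ht h2; exact ih h3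

theorem dl_det (hB : B.IsDet) (s : Sym α) (q : Option Q) (o o' : Option Q × Bool)
    (h : dl B s q o) (h' : dl B s q o') : o = o' := by
  cases q with
  | none => exact h.trans h'.symm
  | some q => exact Cell.det hB h h'

theorem run_none (l r : List (Sym α)) : ∃ n, RunN (dl B) n l r (none, true) (none, true) := by
  induction r generalizing l with
  | nil => exact ⟨0, .doneR _ _⟩
  | cons a r ih =>
    obtain ⟨n, h⟩ := ih (a :: l)
    exact ⟨n + 1, .RR (q' := none) rfl h⟩

theorem get_mid {β : Type} (l r : List β) (a : β) : (l.reverse ++ a :: r)[l.length]? = some a := by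
  simp

/-- From configuration `c` an accepting state is reachable. -/
def Good (B : TwoNFA α Q) (w : List α) (c : Q × ℕ) : Prop :=
  ∃ q ∈ B.accept, ∃ i : ℕ, ReflTransGen (B.Step w) c (q, i)

theorem Good.head {w : List α} {c c' : Q × ℕ} (h : B.Step w c c') (h' : Good B w c') :
    Good B w c := by
  obtain ⟨q, hq, i, hr⟩ := h'
  exact ⟨q, hq, i, ReflTransGen.head h hr⟩

theorem Cell.good {w : List α} {s : Sym α} {i : ℕ} (hs : (tape w)[i]? = some s) {q : Q}
    {o : Option Q × Bool} (h : Cell B s q o)
    (hR : ∀ q', o = (some q', true) → Good B w (q', i + 1))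
    (hL : ∀ q', o = (some q', false) → 0 < i → Good B w (q', i - 1)) : Good B w (q, i) := by
  induction h with
  | acc q hq => exact ⟨q, hq, i, ReflTransGen.refl⟩
  | right q q' _ ht => exact Good.head ⟨s, hs, Or.inr (Or.inr ⟨ht, rfl⟩)⟩ (hR q' rfl)
  | left q q' _ ht =>
    have hi : 0 < i := by
      rcases Nat.eq_zero_or_pos i with rfl | hi
      · simp only [tape, List.getElem?_cons_zero, Option.some.injEq] at hs
        subst hs
        exact absurd ht (B.not_left _ _)
      · exact hi
    exact Good.head ⟨s, hs, Or.inl ⟨ht, by simp only; omega⟩⟩ (hL q' rfl hi)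
  | stay q q' o _ ht _ ih => exact Good.head (c' := (q', i)) ⟨s, hs, Or.inr (Or.inl ⟨ht, rfl⟩)⟩ (ih hR hL)

theorem good_of_run {w : List α} {n : ℕ} {l r : List (Sym α)} {p o : Option Q × Bool}
    (h : RunN (dl B) n l r p o) (ho : o = (none, true)) (ht : tape w = l.reverse ++ r) :
    ∀ q, (p = (some q, true) → Good B w (q, l.length)) ∧
      (p = (some q, false) → Good B w (q, l.length - 1)) := by
  induction h with
  | doneR l q => intro q; simp [ho]
  | doneL r q => simp at ho
  | @RR n l r a q q' o h1 _ ih =>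
    refine fun q0 => ⟨fun e => ?_, by simp⟩
    cases e
    refine Cell.good (ht ▸ get_mid l r a) h1 (fun q2 e => ?_) (by simp)
    exact (ih ho (by simpa using ht) q2).1 e
  | @RL n l r a q q' o h1 _ ih =>
    refine fun q0 => ⟨fun e => ?_, by simp⟩
    cases e
    refine Cell.good (ht ▸ get_mid l r a) h1 (by simp) (fun q2 e _ => ?_)
    exact (ih ho ht q2).2 e
  | @LR n l r a q q' o h1 _ ih =>
    refine fun q0 => ⟨by simp, fun e => ?_⟩
    cases e
    have ht' : tape w = l.reverse ++ a :: r := by simpa using ht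
    refine Cell.good (i := l.length) (ht' ▸ get_mid l r a) h1 (fun q2 e => ?_) (by simp)
    exact (ih ho ht q2).1 e
  | @LL n l r a q q' o h1 _ ih =>
    refine fun q0 => ⟨by simp, fun e => ?_⟩
    cases e
    have ht' : tape w = l.reverse ++ a :: r := by simpa using ht
    refine Cell.good (i := l.length) (ht' ▸ get_mid l r a) h1 (by simp) (fun q2 e _ => ?_)
    exact (ih ho ht' q2).2 e

/-- The run from the cell `a` in state `q` ends with acceptance. -/
def AccCell (B : TwoNFA α Q) (l : List (Sym α)) (a : Sym α) (r : List (Sym α)) (q : Q) : Prop :=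
  ∃ q' n, (Cell B a q (q', true) ∧ RunN (dl B) n (a :: l) r (q', true) (none, true)) ∨
    (Cell B a q (q', false) ∧ RunN (dl B) n l (a :: r) (q', false) (none, true))

theorem AccCell.runR {l r : List (Sym α)} {a : Sym α} {q : Q} (h : AccCell B l a r q) :
    ∃ n, RunN (dl B) n l (a :: r) (some q, true) (none, true) := by
  obtain ⟨q', n, ⟨h1, h2⟩ | ⟨h1, h2⟩⟩ := h
  · exact ⟨_, .RR h1 h2⟩
  · exact ⟨_, .RL h1 h2⟩

theorem AccCell.runL {l r : List (Sym α)} {a : Sym α} {q : Q} (h : AccCell B l a r q) :
    ∃ n, RunN (dl B) n (a :: l) r (some q, false) (none, true) := by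
  obtain ⟨q', n, ⟨h1, h2⟩ | ⟨h1, h2⟩⟩ := h
  · exact ⟨_, .LR h1 h2⟩
  · exact ⟨_, .LL h1 h2⟩

theorem accCell_of_reach {w : List α} {qf : Q} (hqf : qf ∈ B.accept) {j : ℕ} {c : Q × ℕ}
    (h : ReflTransGen (B.Step w) c (qf, j)) : ∀ l a r, tape w = l.reverse ++ a :: r →
      l.length = c.2 → AccCell B l a r c.1 := by
  have hacc : ∀ q ∈ B.accept, ∀ l a r, AccCell B l a r q := fun q hq l a r =>
    (run_none (a :: l) r).elim fun n hn => ⟨none, n, Or.inl ⟨.acc q hq, hn⟩⟩
  induction h using ReflTransGen.head_induction_on with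
  | refl => exact fun l a r _ _ => hacc _ hqf l a r
  | @head c c' hs _ ih =>
    intro l a r ht hl
    by_cases hq : c.1 ∈ B.accept
    · exact hacc _ hq l a r
    obtain ⟨s, hs, hm⟩ := hs
    have ha : s = a := by
      rw [ht, ← hl, get_mid] at hs
      exact (Option.some.inj hs).symm
    subst ha
    rcases hm with ⟨h1, h2⟩ | ⟨h1, h2⟩ | ⟨h1, h2⟩
    · cases l with
      | nil => simp at hl; omega
      | cons a' l =>
        obtain ⟨n, hn⟩ := (ih l a' (s :: r) (by simpa using ht) (by simp at hl; omega)).runL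
        exact ⟨_, n, Or.inr ⟨.left _ _ hq h1, hn⟩⟩
    · obtain ⟨q', n, ⟨h3, h4⟩ | ⟨h3, h4⟩⟩ := ih l s r ht (by omega)
      · exact ⟨q', n, Or.inl ⟨.stay _ _ _ hq h1 h3, h4⟩⟩
      · exact ⟨q', n, Or.inr ⟨.stay _ _ _ hq h1 h3, h4⟩⟩
    · cases r with
      | nil =>
        exfalso
        have h3 : tape w = (Sym.lend :: w.map Sym.letter) ++ [Sym.rend] := rfl
        rw [h3] at ht
        have h4 := List.append_inj_right' ht rfl
        simp only [List.cons.injEq, and_true] at h4
        subst h4
        exact B.not_right _ _ h1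
      | cons a' r =>
        obtain ⟨n, hn⟩ := (ih (s :: l) a' r (by simpa using ht) (by simp; omega)).runR
        exact ⟨_, n, Or.inl ⟨.right _ _ hq h1, hn⟩⟩

theorem mem_language_iff (w : List α) :
    w ∈ B.language ↔ Rw (dl B) [] (tape w) (some B.init, true) (none, true) := by
  constructor
  · rintro ⟨q, hq, i, h⟩
    exact (accCell_of_reach hq h [] Sym.lend _ rfl rfl).runR
  · rintro ⟨n, h⟩
    exact (good_of_run h rfl rfl B.init).1 rfl

end det

section live

variable {h : ℕ}

/-- The product of a word of relations. -/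
def rel : List (Fin h → Fin h → Prop) → Fin h → Fin h → Prop
  | [] => Eq
  | a :: w => Comp a (rel w)

theorem rel_append (u v : List (Fin h → Fin h → Prop)) : rel (u ++ v) = Comp (rel u) (rel v) := by
  induction u with
  | nil => simp [rel]
  | cons a u ih => simp [rel, ih, comp_assoc]

theorem rel_single (a : Fin h → Fin h → Prop) : rel [a] = a := by simp [rel]

/-- The one-way nondeterministic automaton for one-way liveness. -/
def liveNFA (h : ℕ) : TwoNFA (Fin h → Fin h → Prop) (Fin h ⊕ Bool) where
  init := .inr false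
  accept := {.inr true}
  trans q s := match q, s with
    | .inr false, .lend => {t | ∃ i, t = (.inl i, .right)}
    | .inl i, .letter a => {t | ∃ j, a i j ∧ t = (.inl j, .right)}
    | .inl _, .rend => {(.inr true, .stay)}
    | _, _ => ∅
  not_left q q' := by rcases q with q | _ | _ <;> simp
  not_right q q' := by rcases q with q | _ | _ <;> simp

theorem liveNFA_oneWay (h : ℕ) : (liveNFA h).IsOneWay := by
  intro q s q'
  rcases q with q | _ | _ <;> cases s <;> simp [liveNFA]

theorem live_reach (w : List (Fin h → Fin h → Prop)) (v : List (Fin h → Fin h → Prop)) :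
    ∀ (pre : List (Sym (Fin h → Fin h → Prop))) (i j : Fin h),
      tape w = pre ++ (v.map Sym.letter ++ [Sym.rend]) → rel v i j →
      Good (liveNFA h) w (.inl i, pre.length) := by
  induction v with
  | nil =>
    intro pre i j ht _
    refine Good.head (c' := (.inr true, pre.length)) ⟨Sym.rend, by simp [ht], Or.inr (Or.inl ⟨?_, rfl⟩)⟩
      ⟨_, rfl, _, ReflTransGen.refl⟩
    simp [liveNFA]
  | cons a v ih =>
    rintro pre i j ht ⟨k, hk, hr⟩
    refine Good.head (c' := (.inl k, pre.length + 1))
      ⟨Sym.letter a, by simp [ht], Or.inr (Or.inr ⟨⟨k, hk, rfl⟩, rfl⟩)⟩ ?_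
    have := ih (pre ++ [Sym.letter a]) k j (by simp [ht]) hr
    simpa using this

theorem live_inv (w : List (Fin h → Fin h → Prop)) {c : (Fin h ⊕ Bool) × ℕ}
    (hc : ReflTransGen ((liveNFA h).Step w) (.inr false, 0) c) :
    (c = (.inr false, 0)) ∨ (∃ i j k, c = (.inl j, k + 1) ∧ rel (w.take k) i j) ∨
      (c.1 = .inr true ∧ ∃ i j, rel w i j) := by
  induction hc with
  | refl => exact Or.inl rfl
  | @tail c c' _ hs ih =>
    obtain ⟨s, hs, hm⟩ := hs
    obtain ⟨q', k'⟩ := c'
    rcases ih with rfl | ⟨i, j, k, rfl, hr⟩ | ⟨h1, h2⟩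
    · simp only [tape, List.getElem?_cons_zero, Option.some.injEq] at hs
      subst hs
      simp only [liveNFA, Set.mem_ofPred_eq, Prod.mk.injEq, reduceCtorEq, and_false, exists_false,
        false_and, and_true, false_or] at hm
      obtain ⟨⟨i, rfl⟩, rfl⟩ := hm
      exact Or.inr (Or.inl ⟨i, i, 0, rfl, rfl⟩)
    · simp only [tape, List.getElem?_cons_succ] at hs
      rcases lt_or_ge k w.length with hk | hk
      · rw [List.getElem?_append_left (by simpa using hk), List.getElem?_map,
          List.getElem?_eq_getElem hk] at hs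
        simp only [Option.map_some, Option.some.injEq] at hs
        subst hs
        simp only [liveNFA, Set.mem_ofPred_eq, Prod.mk.injEq, reduceCtorEq, and_false, exists_false,
          false_and, and_true, false_or] at hm
        obtain ⟨⟨j', hj, rfl⟩, rfl⟩ := hm
        refine Or.inr (Or.inl ⟨i, j', k + 1, rfl, ?_⟩)
        rw [List.take_add_one, List.getElem?_eq_getElem hk, rel_append]
        exact ⟨j, hr, by simpa [rel_single] using hj⟩
      · rw [List.getElem?_append_right (by simpa using hk)] at hs
        have h3 : s = Sym.rend := by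
          have := List.mem_of_getElem? hs
          simpa using this
        subst h3
        simp only [liveNFA, Set.mem_singleton_iff, Prod.mk.injEq, reduceCtorEq, and_false,
          false_and, and_true, false_or, or_false] at hm
        rw [List.take_of_length_le hk] at hr
        exact Or.inr (Or.inr ⟨hm.1, i, j, hr⟩)
    · obtain ⟨q, k⟩ := c
      simp only at h1
      subst h1
      cases s <;> simp [liveNFA] at hm

theorem mem_live (w : List (Fin h → Fin h → Prop)) :
    w ∈ (liveNFA h).language ↔ ∃ i j, rel w i j := by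
  constructor
  · rintro ⟨q, hq, i, hr⟩
    cases hq
    rcases live_inv w hr with h1 | ⟨_, _, _, h1, -⟩ | ⟨-, h1⟩
    · simp at h1
    · simp at h1
    · exact h1
  · rintro ⟨i, j, hr⟩
    exact Good.head (c' := (.inl i, 1)) ⟨Sym.lend, rfl, Or.inr (Or.inr ⟨⟨i, rfl⟩, rfl⟩)⟩
      (live_reach w w [Sym.lend] i j rfl hr)

theorem lower_bound (hh : 2 ≤ h) {Q : Type} [Fintype Q] (B : TwoNFA (Fin h → Fin h → Prop) Q)
    (hB : B.IsDet) (hL : B.language = (liveNFA h).language) :
    2 ^ ((h - 2) / 15) ≤ 2 * (Fintype.card Q + 1) := by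
  let W := wordTW (dl B) (dl_det hB)
  let φ : FreeMonoid (Fin h → Fin h → Prop) →* FreeMonoid (Sym (Fin h → Fin h → Prop)) :=
    FreeMonoid.map Sym.letter
  let T := W.comap φ
  have key : ∀ u v : FreeMonoid (Fin h → Fin h → Prop), T.Eqv u v → ∀ i j,
      rel u.toList i j → rel v.toList i j := by
    intro u v huv i j hr
    have h0 : W.con (φ u) (φ v) := by
      have e : φ 1 = 1 := map_one φ
      exact ⟨fun q o => by have := huv.1 q o; rwa [show T.R = fun u v => W.R (φ u) (φ v) from rfl,
          show ∀ x y, (fun u v => W.R (φ u) (φ v)) x y = W.R (φ x) (φ y) from fun _ _ => rfl,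
          show ∀ x y, (fun u v => W.R (φ u) (φ v)) x y = W.R (φ x) (φ y) from fun _ _ => rfl,
          e] at this,
        fun q o => by have := huv.2 q o; rwa [show T.R = fun u v => W.R (φ u) (φ v) from rfl,
          show ∀ x y, (fun u v => W.R (φ u) (φ v)) x y = W.R (φ x) (φ y) from fun _ _ => rfl,
          show ∀ x y, (fun u v => W.R (φ u) (φ v)) x y = W.R (φ x) (φ y) from fun _ _ => rfl,
          e] at this⟩
    let a : Fin h → Fin h → Prop := fun x y => x = i ∧ y = i
    let b : Fin h → Fin h → Prop := fun x y => x = j ∧ y = j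
    let pre : FreeMonoid (Sym (Fin h → Fin h → Prop)) := FreeMonoid.ofList [Sym.lend, Sym.letter a]
    let post : FreeMonoid (Sym (Fin h → Fin h → Prop)) := FreeMonoid.ofList [Sym.letter b, Sym.rend]
    have h1 : W.con (pre * φ u * post) (pre * φ v * post) :=
      W.con.mul (W.con.mul (W.con.refl pre) h0) (W.con.refl post)
    have ht : ∀ x : FreeMonoid (Fin h → Fin h → Prop),
        (pre * φ x * post).toList = tape (a :: (x.toList ++ [b])) := by
      intro x
      simp [pre, post, φ, tape, FreeMonoid.toList_map]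
    have hm : ∀ x : FreeMonoid (Fin h → Fin h → Prop), rel x.toList i j ↔
        W.R 1 (pre * φ x * post) (some B.init, true) (none, true) := by
      intro x
      have e1 : W.R 1 (pre * φ x * post) = Rw (dl B) [] (tape (a :: (x.toList ++ [b]))) := by
        rw [← ht]; rfl
      rw [e1, ← mem_language_iff, hL, mem_live]
      simp only [rel, rel_append, Comp, a, b]
      constructor
      · exact fun hr => ⟨i, j, i, ⟨rfl, rfl⟩, j, hr, j, ⟨rfl, rfl⟩, rfl⟩
      · rintro ⟨_, _, _, ⟨-, e1⟩, _, hr', _, ⟨e2, -⟩, -⟩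
        rw [← e1, ← e2]
        exact hr'
    exact (hm v).mpr ((h1.1 _ _).mp ((hm u).mp hr))
  let ρ : T.con.Quotient → Fin h → Fin h → Prop := fun x =>
    Con.liftOn x (fun u => rel u.toList) fun u v huv => by
      funext i j
      exact propext ⟨key u v huv i j, key v u huv.symm' i j⟩
  have hρ : ∀ u : FreeMonoid (Fin h → Fin h → Prop), ρ (u : T.con.Quotient) = rel u.toList :=
    fun _ => rfl
  let fr : Frame (1 : T.con.Quotient) (Fin h) :=
    { ρ := ρ
      one := by rw [← Con.coe_one, hρ]; rfl
      mul := by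
        intro x y _ _
        induction x using Con.induction_on
        induction y using Con.induction_on
        rw [← Con.coe_mul, hρ, hρ, hρ, FreeMonoid.toList_mul, rel_append]
      surj := fun r => ⟨(FreeMonoid.of r : FreeMonoid _), ⟨one_mul _, mul_one _⟩, by
        rw [hρ, FreeMonoid.toList_of, rel_single]⟩ }
  have := card_bound T.quot hh fr
  simpa using this

end live

theorem exists_large (p : Polynomial ℝ) :
    ∃ n : ℕ, 2 * (p.eval ((15 * n + 2 + 2 : ℕ) : ℝ) + 1) < 2 ^ n := by
  have hl : 0 < Real.log 2 := Real.log_pos (by norm_num)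
  let q : Polynomial ℝ :=
    2 * (p.comp (Polynomial.C (15 / Real.log 2) * Polynomial.X + Polynomial.C 4) + 1)
  have h1 := Polynomial.tendsto_div_exp_atTop q
  have h2 : Filter.Tendsto (fun n : ℕ => (n : ℝ) * Real.log 2) Filter.atTop Filter.atTop :=
    tendsto_natCast_atTop_atTop.atTop_mul_const hl
  obtain ⟨n, hn⟩ := ((h1.comp h2).eventually (gt_mem_nhds (show (0 : ℝ) < 1 by norm_num))).exists
  refine ⟨n, ?_⟩
  simp only [Function.comp, q, Polynomial.eval_mul, Polynomial.eval_add, Polynomial.eval_comp,
    Polynomial.eval_C, Polynomial.eval_X, Polynomial.eval_one, Polynomial.eval_ofNat] at hn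
  rw [div_lt_one (Real.exp_pos _), Real.exp_nat_mul, Real.exp_log (by norm_num)] at hn
  have e : 15 / Real.log 2 * (n * Real.log 2) + 4 = ((15 * n + 2 + 2 : ℕ) : ℝ) := by
    push_cast
    field_simp
    ring
  rwa [e] at hn

theorem explicit_bound (h : ℕ) (hh : 2 ≤ h) :
    ∃ (α Q : Type) (_ : Fintype α) (_ : Fintype Q) (A : TwoNFA α Q),
      Fintype.card Q = h + 2 ∧ A.IsOneWay ∧
      ∀ (Q' : Type) [Fintype Q'] (B : TwoNFA α Q'), B.IsDet → B.language = A.language →
        2 ^ ((h - 2) / 15) ≤ 2 * (Fintype.card Q' + 1) := by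
  classical
  exact ⟨Fin h → Fin h → Prop, Fin h ⊕ Bool, inferInstance, inferInstance, liveNFA h, by simp,
    liveNFA_oneWay h, fun Q' _ B hB hL => lower_bound hh B hB hL⟩

theorem no_poly_oneWay : ¬ ∃ p : Polynomial ℝ, ∀ (α Q : Type) [Fintype α] [Fintype Q]
    (A : TwoNFA α Q), A.IsOneWay → ∃ (Q' : Type) (_ : Fintype Q') (B : TwoNFA α Q'),
      (Fintype.card Q' : ℝ) ≤ p.eval (Fintype.card Q : ℝ) ∧ B.IsDet ∧
        B.language = A.language := by
  rintro ⟨p, hp⟩
  obtain ⟨n, hn⟩ := exists_large p
  obtain ⟨α, Q, _, _, A, hc, hA, hlb⟩ := explicit_bound (15 * n + 2) (by omega)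
  obtain ⟨Q', _, B, h1, h2, h3⟩ := hp α Q A hA
  have h4 := hlb Q' B h2 h3
  rw [show (15 * n + 2 - 2) / 15 = n by omega] at h4
  have h5 : (2 : ℝ) ^ n ≤ 2 * (Fintype.card Q' + 1) := by exact_mod_cast h4
  rw [hc] at h1
  linarith

end Vale.Agent.P343
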